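import Mathlib

namespace Vale.Agent.P249h17

open Real Finset MeasureTheory

variable {Ω : Type*} [MeasurableSpace Ω] {ν : Measure Ω} [IsProbabilityMeasure ν]

/-- one step of the derandomised argument -/
lemma one_step {J : Type*} [Fintype J] {u : J → Ω → ℝ} {c : ℝ} (hu : ∀ j, Integrable (u j) ν)
    (hc : ∀ j, ∫ ω, u j ω ∂ν ≤ c) (W : J → ℝ) (hW : ∀ j, 0 ≤ W j) :
    ∃ ω, ∑ j, W j * u j ω ≤ c * ∑ j, W j := by
  have hint : Integrable (fun ω => ∑ j, W j * u j ω) ν :=
    integrable_finsetSum _ (fun j _ => (hu j).const_mul (W j))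
  obtain ⟨ω, hω⟩ := exists_le_integral hint
  refine ⟨ω, hω.trans ?_⟩
  rw [integral_finsetSum _ (fun j _ => (hu j).const_mul (W j)), Finset.mul_sum]
  apply Finset.sum_le_sum
  intro j _
  rw [integral_const_mul, mul_comm c]
  exact mul_le_mul_of_nonneg_left (hc j) (hW j)

lemma many_steps {J : Type*} [Fintype J] {u : J → Ω → ℝ} {c : ℝ} (hu : ∀ j, Integrable (u j) ν)
    (hu0 : ∀ j ω, 0 ≤ u j ω) (hc0 : 0 ≤ c)
    (hc : ∀ j, ∫ ω, u j ω ∂ν ≤ c) (N : ℕ) :
    ∃ ω : Fin N → Ω, ∑ j, ∏ r, u j (ω r) ≤ c ^ N * Fintype.card J := by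
  induction N with
  | zero => exact ⟨Fin.elim0, by simp⟩
  | succ N ih =>
    obtain ⟨ω, hω⟩ := ih
    obtain ⟨ω', hω'⟩ := one_step hu hc (fun j => ∏ r, u j (ω r))
      (fun j => Finset.prod_nonneg (fun r _ => hu0 j _))
    refine ⟨Fin.snoc ω ω', ?_⟩
    have e : ∀ j, ∏ r : Fin (N + 1), u j ((Fin.snoc ω ω' : Fin (N + 1) → Ω) r) =
        (∏ r, u j (ω r)) * u j ω' := by
      intro j
      rw [Fin.prod_univ_castSucc]
      simp
    simp only [e]
    refine hω'.trans ?_
    calc c * ∑ j, ∏ r, u j (ω r) ≤ c * (c ^ N * Fintype.card J) :=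
          mul_le_mul_of_nonneg_left hω hc0
      _ = c ^ (N + 1) * Fintype.card J := by ring

lemma exp_le_chord {s t : ℝ} (ht0 : 0 ≤ t) (ht1 : t ≤ 1) : exp (t * s) ≤ t * exp s + (1 - t) := by
  have := convexOn_exp.2 (Set.mem_univ s) (Set.mem_univ (0 : ℝ)) ht0 (by linarith : 0 ≤ 1 - t)
    (by ring)
  simpa using this

/-- moment generating function bound -/
lemma mgf_bound {Y : Ω → ℝ} {S : ℝ} (hS : 0 < S) (hY : Measurable Y) (hY0 : ∀ ω, 0 ≤ Y ω)
    (hYS : ∀ ω, Y ω ≤ S) (hY1 : ∫ ω, Y ω ∂ν = 1) (s : ℝ) (hs : |s| ≤ 1) :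
    ∫ ω, exp ((s / S) * Y ω) ∂ν ≤ exp ((s + s ^ 2) / S) := by
  have hYint : Integrable Y ν := by
    by_contra h
    rw [integral_undef h] at hY1
    exact zero_ne_one hY1
  have hpt : ∀ ω, exp ((s / S) * Y ω) ≤ 1 + (exp s - 1) / S * Y ω := by
    intro ω
    have h := exp_le_chord (s := s) (t := Y ω / S) (div_nonneg (hY0 ω) hS.le)
      ((div_le_one hS).mpr (hYS ω))
    rw [show s / S * Y ω = Y ω / S * s by ring]
    refine h.trans (le_of_eq ?_)
    ring
  have hint : Integrable (fun ω => exp ((s / S) * Y ω)) ν := by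
    refine Integrable.mono' (g := fun ω => 1 + (exp s - 1) / S * Y ω) ?_ ?_ ?_
    · exact (integrable_const _).add (hYint.const_mul _)
    · exact ((hY.const_mul _).exp).aestronglyMeasurable
    · refine Filter.Eventually.of_forall (fun ω => ?_)
      rw [Real.norm_eq_abs, abs_of_pos (exp_pos _)]
      exact hpt ω
  calc ∫ ω, exp ((s / S) * Y ω) ∂ν ≤ ∫ ω, (1 + (exp s - 1) / S * Y ω) ∂ν :=
        integral_mono hint ((integrable_const _).add (hYint.const_mul _)) hpt
    _ = 1 + (exp s - 1) / S := by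
        rw [integral_add (integrable_const _) (hYint.const_mul _), integral_const_mul, hY1]
        simp
    _ ≤ 1 + (s + s ^ 2) / S := by
        have := abs_le.mp (Real.abs_exp_sub_one_sub_id_le hs)
        have h2 : exp s - 1 ≤ s + s ^ 2 := by linarith [this.2]
        have := div_le_div_of_nonneg_right h2 hS.le
        linarith
    _ ≤ exp ((s + s ^ 2) / S) := by
        have := Real.add_one_le_exp ((s + s ^ 2) / S)
        linarith

/-- derandomised Chernoff bound -/
lemma exists_good_sample {Q : Type*} [Fintype Q] {Y : Q → Ω → ℝ} {S ε : ℝ} (hS : 0 < S)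
    (hε0 : 0 < ε) (hε1 : ε ≤ 1)
    (hY : ∀ q, Measurable (Y q)) (hY0 : ∀ q ω, 0 ≤ Y q ω) (hYS : ∀ q ω, Y q ω ≤ S)
    (hY1 : ∀ q, ∫ ω, Y q ω ∂ν = 1) (N : ℕ)
    (hN : 2 * (Fintype.card Q : ℝ) < exp (N * ε ^ 2 / (4 * S))) :
    ∃ ω : Fin N → Ω, ∀ q, (1 - ε) * N < ∑ r, Y q (ω r) ∧ ∑ r, Y q (ω r) < (1 + ε) * N := by
  classical
  set c : ℝ := exp (-(ε ^ 2 / (4 * S))) with hc
  -- the two families of exponential weights
  set u : (Q × Bool) → Ω → ℝ := fun j ω =>
    if j.2 then exp ((ε / 2 / S) * Y j.1 ω) * exp (-((ε / 2 / S) * (1 + ε)))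
    else exp ((-(ε / 2) / S) * Y j.1 ω) * exp ((ε / 2 / S) * (1 - ε)) with hu
  have hYint : ∀ q, Integrable (Y q) ν := by
    intro q
    by_contra h
    have := hY1 q
    rw [integral_undef h] at this
    exact zero_ne_one this
  have hbint : ∀ (t : ℝ) q, Integrable (fun ω => exp (t * Y q ω)) ν := by
    intro t q
    refine Integrable.mono' (g := fun _ => exp (|t| * S)) (integrable_const _) ?_ ?_
    · exact (((hY q).const_mul _).exp).aestronglyMeasurable
    · refine Filter.Eventually.of_forall (fun ω => ?_)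
      rw [Real.norm_eq_abs, abs_of_pos (exp_pos _)]
      apply exp_le_exp.mpr
      calc t * Y q ω ≤ |t| * Y q ω := mul_le_mul_of_nonneg_right (le_abs_self t) (hY0 q ω)
        _ ≤ |t| * S := mul_le_mul_of_nonneg_left (hYS q ω) (abs_nonneg t)
  have huint : ∀ j, Integrable (u j) ν := by
    intro j
    by_cases hj : j.2
    · simp only [hu, hj, if_true]; exact (hbint _ _).mul_const _
    · simp only [hu, hj, Bool.false_eq_true, if_false]; exact (hbint _ _).mul_const _
  have hu0 : ∀ j ω, 0 ≤ u j ω := by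
    intro j ω
    simp only [hu]
    split_ifs <;> positivity
  have huc : ∀ j, ∫ ω, u j ω ∂ν ≤ c := by
    intro j
    by_cases hj : j.2
    · simp only [hu, hj, if_true]
      rw [integral_mul_const]
      have h := mgf_bound (ν := ν) hS (hY j.1) (hY0 j.1) (hYS j.1) (hY1 j.1) (ε / 2)
        (by rw [abs_of_pos (by positivity)]; linarith)
      calc _ ≤ exp ((ε / 2 + (ε / 2) ^ 2) / S) * exp (-((ε / 2 / S) * (1 + ε))) :=
            mul_le_mul_of_nonneg_right h (exp_pos _).le
        _ = c := by rw [← exp_add, hc]; congr 1; field_simp; ring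
    · simp only [hu, hj, Bool.false_eq_true, if_false]
      rw [integral_mul_const]
      have h := mgf_bound (ν := ν) hS (hY j.1) (hY0 j.1) (hYS j.1) (hY1 j.1) (-(ε / 2))
        (by rw [abs_neg, abs_of_pos (by positivity)]; linarith)
      calc _ ≤ exp ((-(ε / 2) + (-(ε / 2)) ^ 2) / S) * exp ((ε / 2 / S) * (1 - ε)) :=
            mul_le_mul_of_nonneg_right h (exp_pos _).le
        _ = c := by rw [← exp_add, hc]; congr 1; field_simp; ring
  obtain ⟨ω, hω⟩ := many_steps huint hu0 (exp_pos _).le huc N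
  refine ⟨ω, ?_⟩
  have hcard : (Fintype.card (Q × Bool) : ℝ) = 2 * Fintype.card Q := by
    rw [Fintype.card_prod, Fintype.card_bool]; push_cast; ring
  have hlt1 : ∑ j, ∏ r, u j (ω r) < 1 := by
    refine lt_of_le_of_lt hω ?_
    rw [hcard, ← exp_nat_mul, show (N : ℝ) * -(ε ^ 2 / (4 * S)) = -(N * ε ^ 2 / (4 * S)) by ring,
      exp_neg, inv_mul_lt_iff₀ (exp_pos _), mul_one]
    exact hN
  have heach : ∀ j, ∏ r, u j (ω r) < 1 := by
    intro j
    refine lt_of_le_of_lt ?_ hlt1
    exact Finset.single_le_sum (f := fun j => ∏ r, u j (ω r))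
      (fun j _ => Finset.prod_nonneg (fun r _ => hu0 j _)) (Finset.mem_univ j)
  intro q
  constructor
  · have h := heach (q, false)
    simp only [hu, Bool.false_eq_true, if_false, ← exp_add] at h
    rw [← exp_sum, exp_lt_one_iff, Finset.sum_add_distrib, ← Finset.mul_sum] at h
    simp only [Finset.sum_const, Finset.card_univ, Fintype.card_fin, nsmul_eq_mul] at h
    have hpos : 0 < ε / 2 / S := by positivity
    have h2 : (ε / 2 / S) * ((1 - ε) * N - ∑ r, Y q (ω r)) < 0 := by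
      have : -(ε / 2) / S = -(ε / 2 / S) := by ring
      rw [this] at h
      nlinarith
    have h3 := (pos_iff_neg_of_mul_neg h2).mp hpos
    linarith
  · have h := heach (q, true)
    simp only [hu, if_true, ← exp_add] at h
    rw [← exp_sum, exp_lt_one_iff, Finset.sum_add_distrib, ← Finset.mul_sum] at h
    simp only [Finset.sum_const, Finset.card_univ, Fintype.card_fin, nsmul_eq_mul] at h
    have hpos : 0 < ε / 2 / S := by positivity
    have h2 : (ε / 2 / S) * (∑ r, Y q (ω r) - (1 + ε) * N) < 0 := by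
      nlinarith
    have h3 := (pos_iff_neg_of_mul_neg h2).mp hpos
    linarith

end Vale.Agent.P249h17
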