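import Vale.Agent.P249_h17.Pow

namespace Vale.Agent.P249h17

open Real Finset

variable {V ι : Type*} [DecidableEq V] [DecidableEq ι]

/-- edges of `G` with both endpoints in `U` -/
def inside (a b : ι → V) (G : Finset ι) (U : Finset V) : Finset ι :=
  G.filter (fun e => a e ∈ U ∧ b e ∈ U)

/-- hereditary resistivity: every nonempty set `H` of edges contains an edge across which some
`[0,1]`-valued function jumps by one while its `p`-energy on the rest of `H` is at most `κ`. -/
def Resistive (a b : ι → V) (G : Finset ι) (p κ : ℝ) : Prop :=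
  ∀ H ⊆ G, H.Nonempty → ∃ e ∈ H, ∃ f : V → ℝ, (∀ v, 0 ≤ f v ∧ f v ≤ 1) ∧ f (a e) = 1 ∧ f (b e) = 0 ∧
    ∑ e' ∈ H.erase e, |f (a e') - f (b e')| ^ p ≤ κ

/-- the admissible parameters -/
structure Params (p α β C κ : ℝ) : Prop where
  hp : 1 ≤ p
  hα0 : 0 < α
  hα1 : α < 1
  hβ : β = α / p + α - 1
  hβ0 : 0 < β
  hβ1 : β ≤ 1
  hC : C = 4 / (1 - α) + 1
  hκ0 : 0 < κ
  hκ1 : κ ≤ (1 / 4 : ℝ) ^ p
  hκ2 : κ * C ^ α ≤ ((1 / 4 : ℝ) * (β * (2 / C ^ α) / (1 + 2 / C ^ α))) ^ p

lemma Params.C_ge {p α β C κ : ℝ} (h : Params p α β C κ) : 5 ≤ C := by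
  rw [h.hC]
  have h1 : 0 < 1 - α := by linarith [h.hα1]
  have : 4 ≤ 4 / (1 - α) := by
    rw [le_div_iff₀ h1]; nlinarith [h.hα0]
  linarith

lemma growth {a b : ι → V} {G : Finset ι} {p α β C κ : ℝ} (P : Params p α β C κ)
    {U : Finset V}
    (hIH : ∀ A ⊆ U, A.Nonempty → A.card < U.card → ((inside a b G A).card : ℝ) ≤ C * A.card)
    (hdeg : ∀ v ∈ U, 2 ≤ ((inside a b G U).filter (fun e => a e = v ∨ b e = v)).card)
    (hcut : ∀ A ⊆ U, A.Nonempty → (U \ A).Nonempty →
      4 * (min (A.card : ℝ) ((U \ A).card : ℝ)) ^ α <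
        (((inside a b G U).filter (fun e => ¬ (a e ∈ A ↔ b e ∈ A))).card : ℝ))
    {g : V → ℝ} {i : V} (hi : i ∈ U) (hgi : g i = 1) {e : ι}
    (hsum : ∑ e' ∈ (inside a b G U).erase e, |g (a e') - g (b e')| ^ p ≤ κ)
    (hhalf : 2 * (U.filter (fun v => 1 / 2 < g v)).card ≤ U.card) : False := by
  classical
  have hp0 : 0 < p := lt_of_lt_of_le one_pos P.hp
  have hC5 := P.C_ge
  have hC0 : 0 < C := by linarith
  set H := inside a b G U with hH
  set m : ℝ → ℕ := fun τ => (inside a b G (U.filter (fun v => τ ≤ g v))).card with hm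
  have hinside : ∀ e', e' ∈ H ↔ e' ∈ G ∧ a e' ∈ U ∧ b e' ∈ U := by
    intro e'; simp [hH, inside]
  have claim : ∀ k : ℕ, ∃ τ : ℝ, k + 1 ≤ m τ ∧ 1 / 2 + (1 / 4) * ((m τ : ℝ)) ^ (-β) ≤ τ ∧ τ ≤ 1 := by
    intro k
    induction k with
    | zero =>
      -- the first step
      have h1 : 1 ≤ ((H.filter (fun e => a e = i ∨ b e = i)).erase e).card := by
        have := hdeg i hi
        have h2 := Finset.pred_card_le_card_erase (s := H.filter (fun e => a e = i ∨ b e = i)) (a := e)
        omega
      obtain ⟨e', he'⟩ := Finset.card_pos.mp (lt_of_lt_of_le Nat.zero_lt_one h1)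
      rw [Finset.mem_erase, Finset.mem_filter] at he'
      obtain ⟨hne, heH, hinc⟩ := he'
      have hterm : |g (a e') - g (b e')| ^ p ≤ κ := by
        refine le_trans ?_ hsum
        exact Finset.single_le_sum (f := fun e' => |g (a e') - g (b e')| ^ p)
          (fun x _ => Real.rpow_nonneg (abs_nonneg _) _) (Finset.mem_erase.mpr ⟨hne, heH⟩)
      have hq : |g (a e') - g (b e')| ≤ 1 / 4 := by
        have h3 : |g (a e') - g (b e')| ^ p ≤ (1 / 4 : ℝ) ^ p := le_trans hterm P.hκ1
        exact (Real.rpow_le_rpow_iff (abs_nonneg _) (by norm_num) hp0).mp h3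
      have habs := abs_le.mp hq
      have hga : 3 / 4 ≤ g (a e') := by
        rcases hinc with h | h
        · rw [h, hgi]; norm_num
        · rw [h, hgi] at habs; linarith [habs.1]
      have hgb : 3 / 4 ≤ g (b e') := by
        rcases hinc with h | h
        · rw [h, hgi] at habs; linarith [habs.2]
        · rw [h, hgi]; norm_num
      have hmem : e' ∈ inside a b G (U.filter (fun v => (3 / 4 : ℝ) ≤ g v)) := by
        have := (hinside e').mp heH
        simp only [inside, Finset.mem_filter]
        exact ⟨this.1, ⟨this.2.1, hga⟩, ⟨this.2.2, hgb⟩⟩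
      have hm1 : 1 ≤ m (3 / 4) := Finset.card_pos.mpr ⟨e', hmem⟩
      refine ⟨3 / 4, by simpa using hm1, ?_, by norm_num⟩
      have h5 : ((m (3 / 4) : ℝ)) ^ (-β) ≤ 1 :=
        Real.rpow_le_one_of_one_le_of_nonpos (by exact_mod_cast hm1) (by linarith [P.hβ0])
      linarith
    | succ k ih =>
      obtain ⟨τ, hk, hτ, hτ1⟩ := ih
      set A := U.filter (fun v => τ ≤ g v) with hA
      have hm1 : 1 ≤ m τ := by omega
      have hmR : (1 : ℝ) ≤ (m τ : ℝ) := by exact_mod_cast hm1
      have hm0 : (0 : ℝ) < (m τ : ℝ) := by linarith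
      have hτhalf : 1 / 2 < τ := by
        have : 0 < ((m τ : ℝ)) ^ (-β) := Real.rpow_pos_of_pos hm0 _
        linarith
      have hAne : A.Nonempty := ⟨i, by simp [hA, hi, hgi, hτ1]⟩
      have hAU : A ⊆ U := Finset.filter_subset _ _
      have hAcard : 2 * A.card ≤ U.card := by
        refine le_trans (Nat.mul_le_mul_left 2 (Finset.card_le_card ?_)) hhalf
        intro v hv
        rw [hA, Finset.mem_filter] at hv
        exact Finset.mem_filter.mpr ⟨hv.1, by linarith [hv.2]⟩
      have hApos : 0 < A.card := Finset.card_pos.mpr hAne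
      have hdiff : (U \ A).card = U.card - A.card := by
        rw [Finset.card_sdiff_of_subset hAU]
      have hAle : A.card ≤ (U \ A).card := by omega
      have hUA : (U \ A).Nonempty := Finset.card_pos.mp (by omega)
      have hAR : (1 : ℝ) ≤ (A.card : ℝ) := by exact_mod_cast hApos
      have hcutA := hcut A hAU hAne hUA
      rw [min_eq_left (by exact_mod_cast hAle)] at hcutA
      have hmA : (m τ : ℝ) ≤ C * A.card := hIH A hAU hAne (by omega)
      have hmC : (m τ : ℝ) / C ≤ A.card := by rw [div_le_iff₀ hC0]; linarith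
      have hpowle : ((m τ : ℝ) / C) ^ α ≤ (A.card : ℝ) ^ α :=
        Real.rpow_le_rpow (by positivity) hmC P.hα0.le
      have hA1 : (1 : ℝ) ≤ (A.card : ℝ) ^ α := Real.one_le_rpow hAR P.hα0.le
      set δ : ℝ := (κ * C ^ α) ^ (1 / p) * (m τ : ℝ) ^ (-(α / p)) with hδ
      have hκC : 0 < κ * C ^ α := mul_pos P.hκ0 (Real.rpow_pos_of_pos hC0 _)
      have hδ0 : 0 < δ := mul_pos (Real.rpow_pos_of_pos hκC _) (Real.rpow_pos_of_pos hm0 _)
      have hδp : δ ^ p * ((m τ : ℝ) / C) ^ α = κ := by
        rw [hδ, Real.mul_rpow (Real.rpow_nonneg hκC.le _) (Real.rpow_nonneg hm0.le _),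
          ← Real.rpow_mul hκC.le, ← Real.rpow_mul hm0.le, one_div, inv_mul_cancel₀ hp0.ne',
          Real.rpow_one, Real.div_rpow hm0.le hC0.le]
        have e1 : -(α / p) * p = -α := by field_simp
        rw [e1, Real.rpow_neg hm0.le]
        have h1 := (Real.rpow_pos_of_pos hm0 α).ne'
        have h2 := (Real.rpow_pos_of_pos hC0 α).ne'
        field_simp
      set bad := (H.erase e).filter (fun e' => δ < |g (a e') - g (b e')|) with hbad
      have hbadcard : (bad.card : ℝ) ≤ (A.card : ℝ) ^ α := by
        have h1 : (bad.card : ℝ) * δ ^ p ≤ κ := by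
          calc (bad.card : ℝ) * δ ^ p = ∑ _e' ∈ bad, δ ^ p := by simp
            _ ≤ ∑ e' ∈ bad, |g (a e') - g (b e')| ^ p := by
              apply Finset.sum_le_sum
              intro x hx
              rw [hbad, Finset.mem_filter] at hx
              exact Real.rpow_le_rpow hδ0.le hx.2.le hp0.le
            _ ≤ ∑ e' ∈ H.erase e, |g (a e') - g (b e')| ^ p := by
              apply Finset.sum_le_sum_of_subset_of_nonneg (Finset.filter_subset _ _)
              intro x _ _
              exact Real.rpow_nonneg (abs_nonneg _) _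
            _ ≤ κ := hsum
        have h2 : 0 < δ ^ p := Real.rpow_pos_of_pos hδ0 _
        have h3 : (bad.card : ℝ) ≤ ((m τ : ℝ) / C) ^ α := by
          rw [← hδp, mul_comm] at h1
          exact le_of_mul_le_mul_left h1 h2
        exact le_trans h3 hpowle
      set cross := H.filter (fun e => ¬ (a e ∈ A ↔ b e ∈ A)) with hcross
      set A' := U.filter (fun v => τ - δ ≤ g v) with hA'
      have hsub : cross ⊆ insert e (bad ∪ (inside a b G A' \ inside a b G A)) := by
        intro x hx
        by_cases hxe : x = e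
        · exact Finset.mem_insert.mpr (Or.inl hxe)
        apply Finset.mem_insert.mpr; right
        by_cases hxb : x ∈ bad
        · exact Finset.mem_union.mpr (Or.inl hxb)
        apply Finset.mem_union.mpr; right
        rw [hcross, Finset.mem_filter] at hx
        obtain ⟨hxH, hxA⟩ := hx
        have hxle : |g (a x) - g (b x)| ≤ δ := by
          by_contra hcon
          exact hxb (Finset.mem_filter.mpr ⟨Finset.mem_erase.mpr ⟨hxe, hxH⟩, not_le.mp hcon⟩)
        have habs := abs_le.mp hxle
        have hxG := (hinside x).mp hxH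
        have key : τ - δ ≤ g (a x) ∧ τ - δ ≤ g (b x) := by
          by_cases hax : a x ∈ A
          · have : τ ≤ g (a x) := (Finset.mem_filter.mp hax).2
            constructor <;> linarith [habs.1, habs.2]
          · have hbx : b x ∈ A := by
              by_contra hbx
              exact hxA (by simp [hax, hbx])
            have : τ ≤ g (b x) := (Finset.mem_filter.mp hbx).2
            constructor <;> linarith [habs.1, habs.2]
        rw [Finset.mem_sdiff]
        constructor
        · simp only [inside, Finset.mem_filter, hA']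
          exact ⟨hxG.1, ⟨hxG.2.1, key.1⟩, ⟨hxG.2.2, key.2⟩⟩
        · intro hin
          simp only [inside, Finset.mem_filter] at hin
          exact hxA (by simp [hin.2.1, hin.2.2])
      have hsubAA : inside a b G A ⊆ inside a b G A' := by
        intro x hx
        simp only [inside, Finset.mem_filter, hA, hA'] at hx ⊢
        exact ⟨hx.1, ⟨hx.2.1.1, by linarith [hx.2.1.2]⟩, ⟨hx.2.2.1, by linarith [hx.2.2.2]⟩⟩
      have hcard1 : cross.card ≤ 1 + (bad.card + ((inside a b G A').card - (inside a b G A).card)) := by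
        calc cross.card ≤ (insert e (bad ∪ (inside a b G A' \ inside a b G A))).card :=
              Finset.card_le_card hsub
          _ ≤ (bad ∪ (inside a b G A' \ inside a b G A)).card + 1 := Finset.card_insert_le _ _
          _ ≤ bad.card + (inside a b G A' \ inside a b G A).card + 1 := by
              gcongr; exact Finset.card_union_le _ _
          _ = 1 + (bad.card + ((inside a b G A').card - (inside a b G A).card)) := by
              rw [Finset.card_sdiff_of_subset hsubAA]; ring
      have hAAcard := Finset.card_le_card hsubAA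
      have hmτ : m τ = (inside a b G A).card := rfl
      have hmτ' : m (τ - δ) = (inside a b G A').card := rfl
      have hreal : (cross.card : ℝ) ≤ 1 + (bad.card + ((m (τ - δ) : ℝ) - (m τ : ℝ))) := by
        rw [hmτ, hmτ', ← Nat.cast_sub hAAcard]
        exact_mod_cast hcard1
      set c1 : ℝ := 2 / C ^ α with hc1
      have hc10 : 0 < c1 := div_pos two_pos (Real.rpow_pos_of_pos hC0 _)
      have hgrow : (m τ : ℝ) + c1 * (m τ : ℝ) ^ α ≤ (m (τ - δ) : ℝ) := by
        have e1 : c1 * (m τ : ℝ) ^ α = 2 * ((m τ : ℝ) / C) ^ α := by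
          rw [hc1, Real.div_rpow hm0.le hC0.le]; ring
        rw [e1]
        linarith
      have hgt : m τ < m (τ - δ) := by
        have : (m τ : ℝ) < (m (τ - δ) : ℝ) := by
          have := mul_pos hc10 (Real.rpow_pos_of_pos hm0 α)
          linarith
        exact_mod_cast this
      refine ⟨τ - δ, by omega, ?_, by linarith⟩
      have hdrop := potential_drop P.hα1.le P.hβ0 P.hβ1 hc10 hmR hgrow
      have hexp : α - 1 - β = -(α / p) := by rw [P.hβ]; ring
      rw [hexp] at hdrop
      have hδle : δ ≤ (1 / 4) * ((β * c1 / (1 + c1)) * (m τ : ℝ) ^ (-(α / p))) := by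
        have hpos : 0 < (1 / 4 : ℝ) * (β * c1 / (1 + c1)) := by
          have := P.hβ0; positivity
        have h1 : (κ * C ^ α) ^ (1 / p) ≤ (1 / 4) * (β * c1 / (1 + c1)) := by
          have h2 := Real.rpow_le_rpow hκC.le P.hκ2 (by positivity : 0 ≤ 1 / p)
          rw [← Real.rpow_mul hpos.le, mul_one_div, div_self hp0.ne', Real.rpow_one] at h2
          exact h2
        rw [hδ, ← mul_assoc]
        exact mul_le_mul_of_nonneg_right h1 (Real.rpow_nonneg hm0.le _)
      linarith
  obtain ⟨τ, hk, -, -⟩ := claim G.card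
  have : m τ ≤ G.card := Finset.card_le_card (Finset.filter_subset _ _)
  omega

lemma sparse {a b : ι → V} {G : Finset ι} {p α β C κ : ℝ} (P : Params p α β C κ)
    (hG : Resistive a b G p κ) :
    ∀ n : ℕ, ∀ U : Finset V, U.card = n → U.Nonempty →
      ((inside a b G U).card : ℝ) + 4 / (1 - α) * (U.card : ℝ) ^ α ≤ C * U.card := by
  classical
  have hα : 0 < 1 - α := by linarith [P.hα1]
  have hB : 0 < 4 / (1 - α) := by positivity
  have hC5 := P.C_ge
  intro n
  induction n using Nat.strong_induction_on with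
  | _ n IH =>
  intro U hUn hU
  have hIH : ∀ A ⊆ U, A.Nonempty → A.card < U.card →
      ((inside a b G A).card : ℝ) + 4 / (1 - α) * (A.card : ℝ) ^ α ≤ C * A.card := by
    intro A _ hAne hlt
    exact IH A.card (by omega) A rfl hAne
  have hinside : ∀ e', e' ∈ inside a b G U ↔ e' ∈ G ∧ a e' ∈ U ∧ b e' ∈ U := by
    intro e'; simp [inside]
  -- the singleton case
  rcases Nat.lt_or_ge 1 U.card with h2 | h1
  swap
  · have hcard : U.card = 1 := le_antisymm h1 (Finset.card_pos.mpr hU)
    obtain ⟨v, hv⟩ := Finset.card_eq_one.mp hcard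
    have hemp : inside a b G U = ∅ := by
      rw [Finset.eq_empty_iff_forall_notMem]
      intro e he
      have h3 := (hinside e).mp he
      obtain ⟨e', he', f, _, hfa, hfb, _⟩ := hG {e} (by simpa using h3.1) (by simp)
      rw [Finset.mem_singleton] at he'
      subst he'
      rw [hv, Finset.mem_singleton, Finset.mem_singleton] at h3
      rw [h3.2.1] at hfa; rw [h3.2.2] at hfb
      linarith
    rw [hemp, hcard, P.hC]; simp
  by_cases hdeg : ∀ v ∈ U, 2 ≤ ((inside a b G U).filter (fun e => a e = v ∨ b e = v)).card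
  swap
  · -- a vertex of degree at most one
    push Not at hdeg
    obtain ⟨v, hvU, hv⟩ := hdeg
    have hsub : inside a b G U ⊆ inside a b G (U.erase v) ∪
        ((inside a b G U).filter (fun e => a e = v ∨ b e = v)) := by
      intro e he
      rw [Finset.mem_union]
      by_cases h : a e = v ∨ b e = v
      · right; exact Finset.mem_filter.mpr ⟨he, h⟩
      · left
        push Not at h
        have h3 := (hinside e).mp he
        simp only [inside, Finset.mem_filter, Finset.mem_erase]
        exact ⟨h3.1, ⟨h.1, h3.2.1⟩, ⟨h.2, h3.2.2⟩⟩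
    have hcard : (inside a b G U).card ≤ (inside a b G (U.erase v)).card + 1 := by
      calc (inside a b G U).card ≤ _ := Finset.card_le_card hsub
        _ ≤ _ := Finset.card_union_le _ _
        _ ≤ (inside a b G (U.erase v)).card + 1 := by omega
    have hec : (U.erase v).card = U.card - 1 := Finset.card_erase_of_mem hvU
    have hne : (U.erase v).Nonempty := Finset.card_pos.mp (by omega)
    have h4 := hIH (U.erase v) (Finset.erase_subset _ _) hne (by omega)
    have h5 : (U.card : ℝ) = ((U.erase v).card : ℝ) + 1 := by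
      rw [hec]; push_cast [Nat.cast_sub (by omega : 1 ≤ U.card)]; ring
    have h6 : (U.card : ℝ) ^ α ≤ ((U.erase v).card : ℝ) ^ α + 1 := by
      rw [h5]
      have := Real.rpow_add_le_add_rpow (Nat.cast_nonneg (U.erase v).card) zero_le_one P.hα0.le P.hα1.le
      simpa using this
    have h7 : ((inside a b G U).card : ℝ) ≤ ((inside a b G (U.erase v)).card : ℝ) + 1 := by
      exact_mod_cast hcard
    have h8 : 4 / (1 - α) * (U.card : ℝ) ^ α ≤ 4 / (1 - α) * (((U.erase v).card : ℝ) ^ α + 1) :=
      mul_le_mul_of_nonneg_left h6 hB.le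
    have h9 : C * (U.card : ℝ) = C * ((U.erase v).card : ℝ) + (4 / (1 - α) + 1) := by
      rw [h5, mul_add, mul_one, ← P.hC]
    rw [h9]
    linarith
  by_cases hcut : ∀ A ⊆ U, A.Nonempty → (U \ A).Nonempty →
      4 * (min (A.card : ℝ) ((U \ A).card : ℝ)) ^ α <
        (((inside a b G U).filter (fun e => ¬ (a e ∈ A ↔ b e ∈ A))).card : ℝ)
  swap
  · -- a sparse cut
    simp only [not_forall, not_lt] at hcut
    obtain ⟨A, hAU, hAne, hUA, hle⟩ := hcut
    have hsub : inside a b G U ⊆ (inside a b G A ∪ inside a b G (U \ A)) ∪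
        ((inside a b G U).filter (fun e => ¬ (a e ∈ A ↔ b e ∈ A))) := by
      intro e he
      have h3 := (hinside e).mp he
      simp only [Finset.mem_union]
      by_cases hax : a e ∈ A
      · by_cases hbx : b e ∈ A
        · left; left; simp [inside, h3.1, hax, hbx]
        · right; rw [Finset.mem_filter]; exact ⟨he, by simp [hax, hbx]⟩
      · by_cases hbx : b e ∈ A
        · right; rw [Finset.mem_filter]; exact ⟨he, by simp [hax, hbx]⟩
        · left; right; simp [inside, h3.1, hax, hbx, h3.2.1, h3.2.2]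
    have hcard : (inside a b G U).card ≤ (inside a b G A).card + (inside a b G (U \ A)).card +
        ((inside a b G U).filter (fun e => ¬ (a e ∈ A ↔ b e ∈ A))).card := by
      calc (inside a b G U).card ≤ _ := Finset.card_le_card hsub
        _ ≤ _ := Finset.card_union_le _ _
        _ ≤ _ := by gcongr; exact Finset.card_union_le _ _
    have hc1 : (U \ A).card = U.card - A.card := Finset.card_sdiff_of_subset hAU
    have hApos : 0 < A.card := Finset.card_pos.mpr hAne
    have hUApos : 0 < (U \ A).card := Finset.card_pos.mpr hUA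
    have hAle : A.card ≤ U.card := Finset.card_le_card hAU
    have i1 := hIH A hAU hAne (by omega)
    have i2 := hIH (U \ A) Finset.sdiff_subset hUA (by omega)
    have hsumc : (U.card : ℝ) = (A.card : ℝ) + ((U \ A).card : ℝ) := by
      rw [hc1, Nat.cast_sub hAle]; ring
    have hgain := rpow_gain' (α := α) (x := (A.card : ℝ)) (y := ((U \ A).card : ℝ)) P.hα0.le
      P.hα1.le (by exact_mod_cast hApos) (by exact_mod_cast hUApos)
    rw [← hsumc] at hgain
    have hgain2 : 4 / (1 - α) * (U.card : ℝ) ^ α +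
        4 * (min (A.card : ℝ) ((U \ A).card : ℝ)) ^ α ≤
        4 / (1 - α) * (A.card : ℝ) ^ α + 4 / (1 - α) * ((U \ A).card : ℝ) ^ α := by
      have := mul_le_mul_of_nonneg_left hgain hB.le
      have e1 : 4 / (1 - α) * ((U.card : ℝ) ^ α + (1 - α) *
          (min (A.card : ℝ) ((U \ A).card : ℝ)) ^ α) = 4 / (1 - α) * (U.card : ℝ) ^ α +
          4 * (min (A.card : ℝ) ((U \ A).card : ℝ)) ^ α := by
        field_simp
      linarith
    have hcardR : ((inside a b G U).card : ℝ) ≤ ((inside a b G A).card : ℝ) +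
        ((inside a b G (U \ A)).card : ℝ) +
        (((inside a b G U).filter (fun e => ¬ (a e ∈ A ↔ b e ∈ A))).card : ℝ) := by
      exact_mod_cast hcard
    have h9 : C * (U.card : ℝ) = C * (A.card : ℝ) + C * ((U \ A).card : ℝ) := by
      rw [hsumc]; ring
    rw [h9]
    linarith
  -- expansion in all scales: contradiction with resistivity
  exfalso
  obtain ⟨v0, hv0⟩ := hU
  have hHne : (inside a b G U).Nonempty := by
    have := hdeg v0 hv0
    obtain ⟨x, hx⟩ := Finset.card_pos.mp (by omega :
      0 < ((inside a b G U).filter (fun e => a e = v0 ∨ b e = v0)).card)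
    exact ⟨x, (Finset.mem_filter.mp hx).1⟩
  obtain ⟨e, heH, f, hf, hfa, hfb, hsum⟩ := hG (inside a b G U) (Finset.filter_subset _ _) hHne
  have heU := (hinside e).mp heH
  have hIH' : ∀ A ⊆ U, A.Nonempty → A.card < U.card →
      ((inside a b G A).card : ℝ) ≤ C * A.card := by
    intro A h1 h2 h3
    have h4 := hIH A h1 h2 h3
    have h5 : 0 ≤ 4 / (1 - α) * (A.card : ℝ) ^ α :=
      mul_nonneg hB.le (Real.rpow_nonneg (Nat.cast_nonneg _) _)
    linarith
  by_cases hhalf : 2 * (U.filter (fun v => 1 / 2 < f v)).card ≤ U.card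
  · exact growth P hIH' hdeg hcut heU.2.1 hfa hsum hhalf
  · push Not at hhalf
    have hhalf' : 2 * (U.filter (fun v => 1 / 2 < (1 - f v))).card ≤ U.card := by
      have hdisj : Disjoint (U.filter (fun v => 1 / 2 < (1 - f v)))
          (U.filter (fun v => 1 / 2 < f v)) := by
        rw [Finset.disjoint_left]
        intro v h1 h2
        rw [Finset.mem_filter] at h1 h2
        linarith [h1.2, h2.2]
      have h3 : ((U.filter (fun v => 1 / 2 < (1 - f v))) ∪
          (U.filter (fun v => 1 / 2 < f v))).card ≤ U.card :=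
        Finset.card_le_card (Finset.union_subset (Finset.filter_subset _ _)
          (Finset.filter_subset _ _))
      rw [Finset.card_union_of_disjoint hdisj] at h3
      omega
    refine growth P hIH' hdeg hcut (g := fun v => 1 - f v) heU.2.2 (by simp [hfb]) (e := e) ?_ hhalf'
    refine le_trans (le_of_eq ?_) hsum
    apply Finset.sum_congr rfl
    intro x _
    congr 1
    rw [show (1 - f (a x)) - (1 - f (b x)) = -(f (a x) - f (b x)) by ring, abs_neg]

/-- the existence of admissible parameters for every `p ≥ 1` -/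
lemma exists_params (p : ℝ) (hp : 1 ≤ p) : ∃ α β C κ, Params p α β C κ ∧ κ ≤ 1 := by
  have hp0 : 0 < p := by linarith
  set α : ℝ := 1 - 1 / (2 * (p + 1)) with hα
  have hα1 : α < 1 := by
    rw [hα]; have : 0 < 1 / (2 * (p + 1)) := by positivity
    linarith
  have hα0 : 0 < α := by
    rw [hα]
    have : 1 / (2 * (p + 1)) ≤ 1 / 4 := by
      apply one_div_le_one_div_of_le <;> linarith
    linarith
  have hβ : α / p + α - 1 = 1 / (2 * p) := by
    rw [hα]; field_simp; ring
  set C : ℝ := 4 / (1 - α) + 1 with hC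
  have hC0 : 0 < C := by
    have : 0 < 1 - α := by linarith
    positivity
  set q : ℝ := ((1 / 4 : ℝ) * ((1 / (2 * p)) * (2 / C ^ α) / (1 + 2 / C ^ α))) ^ p with hq
  have hq0 : 0 < q := by
    rw [hq]; apply Real.rpow_pos_of_pos
    have := Real.rpow_pos_of_pos hC0 α
    positivity
  have hCα : 0 < C ^ α := Real.rpow_pos_of_pos hC0 α
  refine ⟨α, 1 / (2 * p), C, min ((1 / 4 : ℝ) ^ p) (q / C ^ α), ⟨hp, hα0, hα1, hβ.symm, by positivity,
    ?_, rfl, ?_, min_le_left _ _, ?_⟩, ?_⟩
  · rw [div_le_one (by positivity)]; linarith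
  · exact lt_min (Real.rpow_pos_of_pos (by norm_num) _) (by positivity)
  · calc min ((1 / 4 : ℝ) ^ p) (q / C ^ α) * C ^ α ≤ q / C ^ α * C ^ α :=
          mul_le_mul_of_nonneg_right (min_le_right _ _) hCα.le
      _ = q := by field_simp
  · refine le_trans (min_le_left _ _) ?_
    exact Real.rpow_le_one (by norm_num) (by norm_num) hp0.le

end Vale.Agent.P249h17
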