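import Vale.Agent.P249_h17.Greedy
import Vale.Agent.P249_h17.Chernoff

namespace Vale.Agent.P249h17

open Real Finset MeasureTheory
open scoped ENNReal

universe u

/-- the `p`-th power of the norm in `Lp`, as an integral -/
lemma Lp_norm_rpow {p : ℝ≥0∞} (hp1 : 1 ≤ p) (hp : p ≠ ∞) {Ω : Type u} [MeasurableSpace Ω]
    {μ : Measure Ω} (x y : Lp ℝ p μ) :
    Integrable (fun ω => |(x : Ω → ℝ) ω - (y : Ω → ℝ) ω| ^ p.toReal) μ ∧
    ∫ ω, |(x : Ω → ℝ) ω - (y : Ω → ℝ) ω| ^ p.toReal ∂μ = ‖x - y‖ ^ p.toReal := by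
  have hp0 : p ≠ 0 := (lt_of_lt_of_le one_pos hp1).ne'
  have hP : 0 < p.toReal := ENNReal.toReal_pos hp0 hp
  have hmem : MemLp (⇑(x - y)) p μ := Lp.memLp (x - y)
  have hae := Lp.coeFn_sub x y
  have hae2 : (fun ω => ‖(x - y : Lp ℝ p μ) ω‖ ^ p.toReal) =ᵐ[μ]
      fun ω => |(x : Ω → ℝ) ω - (y : Ω → ℝ) ω| ^ p.toReal := by
    filter_upwards [hae] with ω hω
    rw [hω, Pi.sub_apply, Real.norm_eq_abs]
  refine ⟨(hmem.integrable_norm_rpow hp0 hp).congr hae2, ?_⟩
  rw [← integral_congr_ae hae2, Lp.norm_def, hmem.eLpNorm_eq_integral_rpow_norm hp0 hp]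
  have hnn : 0 ≤ ∫ ω, ‖(x - y : Lp ℝ p μ) ω‖ ^ p.toReal ∂μ :=
    integral_nonneg (fun ω => Real.rpow_nonneg (norm_nonneg _) _)
  rw [ENNReal.toReal_ofReal (Real.rpow_nonneg hnn _), ← Real.rpow_mul hnn,
    inv_mul_cancel₀ hP.ne', Real.rpow_one]

theorem embed (p : ℝ≥0∞) [Fact (1 ≤ p)] (hp : p ≠ ∞) : ∃ C : ℝ, 0 < C ∧
    ∀ (Ω : Type u) [MeasurableSpace Ω] (μ : Measure Ω) (n : ℕ), 2 ≤ n →
    ∀ x : Fin n → Lp ℝ p μ, Function.Injective x → ∀ D : ℝ, 1 < D → ∀ N : ℕ,
    C * ((D + 1) / (D - 1)) ^ 2 * n * log n ≤ N →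
    ∃ f : Fin n → PiLp p (fun _ : Fin N => ℝ), ∃ s : ℝ, 0 < s ∧
      ∀ i j, s * ‖x i - x j‖ ≤ ‖f i - f j‖ ∧ ‖f i - f j‖ ≤ D * s * ‖x i - x j‖ := by
  classical
  have hp1 : 1 ≤ p := Fact.out
  have hp0 : p ≠ 0 := (lt_of_lt_of_le one_pos hp1).ne'
  set P := p.toReal with hPdef
  have hP0 : 0 < P := ENNReal.toReal_pos hp0 hp
  have hP1 : 1 ≤ P := by
    have := ENNReal.toReal_mono hp hp1
    simpa using this
  obtain ⟨K, hK1, hK⟩ := exists_spanner P hP1
  have hK0 : 0 < K := by linarith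
  refine ⟨16 * K ^ 2, by positivity, ?_⟩
  intro Ω _ μ n hn x hx D hD N hN
  have hn0 : (0 : ℝ) < n := by exact_mod_cast (by omega : 0 < n)
  have hnR : (2 : ℝ) ≤ n := by exact_mod_cast hn
  have hlog : 0 < log n := Real.log_pos (by linarith)
  have hdist : ∀ i j, i ≠ j → 0 < ‖x i - x j‖ := by
    intro i j hij
    rw [norm_pos_iff, sub_ne_zero]
    exact fun h => hij (hx h)
  obtain ⟨G, hGcard, hGne, hdom⟩ := hK n (fun e => ‖x e.1 - x e.2‖) hdist
  -- nonemptiness of G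
  have hGpos : 0 < G.card := by
    rw [Finset.card_pos]
    by_contra hemp
    rw [Finset.not_nonempty_iff_eq_empty] at hemp
    have h01 : (⟨0, by omega⟩ : Fin n) ≠ ⟨1, by omega⟩ := by simp [Fin.ext_iff]
    have h := hdom _ _ h01 (fun i => if i = ⟨0, by omega⟩ then 1 else 0)
    rw [hemp] at h
    simp only [Finset.sum_empty, mul_zero, if_true] at h
    rw [if_neg h01.symm] at h
    have h2 : 0 < (|(1 : ℝ) - 0| / ‖x ⟨0, by omega⟩ - x ⟨1, by omega⟩‖) ^ P := by
      apply Real.rpow_pos_of_pos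
      exact div_pos (by norm_num) (hdist _ _ h01)
    linarith
  set M : ℝ := (G.card : ℝ) with hM
  have hM0 : 0 < M := by rw [hM]; exact_mod_cast hGpos
  -- representatives
  set X : Fin n → Ω → ℝ := fun i => (x i : Ω → ℝ) with hX
  have hXm : ∀ i, Measurable (X i) := fun i => (Lp.stronglyMeasurable (x i)).measurable
  have hmeas : ∀ i j, Measurable (fun ω => (|X i ω - X j ω| / ‖x i - x j‖) ^ P) := by
    intro i j
    exact (((hXm i).sub (hXm j)).abs.div_const _).pow_const _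
  have hnorm : ∀ i j, i ≠ j →
      Integrable (fun ω => (|X i ω - X j ω| / ‖x i - x j‖) ^ P) μ ∧
      ∫ ω, (|X i ω - X j ω| / ‖x i - x j‖) ^ P ∂μ = 1 := by
    intro i j hij
    have h0 := hdist i j hij
    have hpow : 0 < ‖x i - x j‖ ^ P := Real.rpow_pos_of_pos h0 _
    obtain ⟨h1, h2⟩ := Lp_norm_rpow hp1 hp (x i) (x j)
    have e : (fun ω => (|X i ω - X j ω| / ‖x i - x j‖) ^ P) =
        fun ω => |X i ω - X j ω| ^ P / ‖x i - x j‖ ^ P := by
      funext ω
      rw [Real.div_rpow (abs_nonneg _) h0.le]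
    rw [e]
    refine ⟨h1.div_const _, ?_⟩
    rw [integral_div]
    have h3 : ∫ ω, |X i ω - X j ω| ^ P ∂μ = ‖x i - x j‖ ^ P := h2
    rw [h3, div_self hpow.ne']
  -- the density
  set g : Ω → ℝ := fun ω => (∑ e ∈ G, (|X e.1 ω - X e.2 ω| / ‖x e.1 - x e.2‖) ^ P) / M with hg
  have hg0 : ∀ ω, 0 ≤ g ω := by
    intro ω
    simp only [hg]
    exact div_nonneg (Finset.sum_nonneg (fun e _ => by positivity)) hM0.le
  have hgm : Measurable g := by
    simp only [hg]
    exact (Finset.measurable_fun_sum _ (fun e _ => hmeas e.1 e.2)).div_const _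
  have hgint : Integrable g μ := by
    simp only [hg]
    exact (integrable_finsetSum _ (fun e he => (hnorm e.1 e.2 (hGne e he)).1)).div_const _
  have hg1 : ∫ ω, g ω ∂μ = 1 := by
    simp only [hg]
    rw [integral_div, integral_finsetSum _ (fun e he => (hnorm e.1 e.2 (hGne e he)).1),
      Finset.sum_congr rfl (fun e he => (hnorm e.1 e.2 (hGne e he)).2)]
    simp [hM, hGpos.ne']
  set ν : Measure Ω := μ.withDensity (fun ω => ENNReal.ofReal (g ω)) with hν
  have hprob : IsProbabilityMeasure ν := by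
    constructor
    rw [hν, withDensity_apply _ MeasurableSet.univ, Measure.restrict_univ,
      ← ofReal_integral_eq_lintegral_ofReal hgint (Filter.Eventually.of_forall hg0), hg1,
      ENNReal.ofReal_one]
  -- normalised contributions
  set Q := {e : Fin n × Fin n // e.1 ≠ e.2} with hQ
  set Y : Q → Ω → ℝ := fun q ω =>
    (|X q.1.1 ω - X q.1.2 ω| / ‖x q.1.1 - x q.1.2‖) ^ P / g ω with hY
  have hYm : ∀ q, Measurable (Y q) := fun q => (hmeas _ _).div hgm
  have hY0 : ∀ q ω, 0 ≤ Y q ω := by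
    intro q ω
    simp only [hY]
    exact div_nonneg (by positivity) (hg0 ω)
  set S : ℝ := K * M with hS
  have hS0 : 0 < S := mul_pos hK0 hM0
  have hdomg : ∀ i j, i ≠ j → ∀ ω, (|X i ω - X j ω| / ‖x i - x j‖) ^ P ≤ S * g ω := by
    intro i j hij ω
    have h := hdom i j hij (fun k => X k ω)
    have e : S * g ω = K * ∑ e ∈ G, (|X e.1 ω - X e.2 ω| / ‖x e.1 - x e.2‖) ^ P := by
      simp only [hg, hS]; field_simp
    rw [e]
    exact h
  have hYS : ∀ q ω, Y q ω ≤ S := by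
    intro q ω
    simp only [hY]
    rcases (hg0 ω).eq_or_lt with h | h
    · rw [← h, div_zero]; exact hS0.le
    · rw [div_le_iff₀ h]; exact hdomg _ _ q.2 ω
  have hYg : ∀ q : Q, ∀ ω, g ω * Y q ω = (|X q.1.1 ω - X q.1.2 ω| / ‖x q.1.1 - x q.1.2‖) ^ P := by
    intro q ω
    simp only [hY]
    rcases (hg0 ω).eq_or_lt with h | h
    · have h1 := hdomg _ _ q.2 ω
      rw [← h, mul_zero] at h1
      rw [← h, zero_mul]
      exact le_antisymm (by positivity) h1
    · field_simp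
  have hY1 : ∀ q, ∫ ω, Y q ω ∂ν = 1 := by
    intro q
    rw [hν, integral_withDensity_eq_integral_toReal_smul (hgm.ennreal_ofReal)
      (Filter.Eventually.of_forall (fun ω => ENNReal.ofReal_lt_top))]
    rw [← (hnorm q.1.1 q.1.2 q.2).2]
    apply integral_congr_ae
    refine Filter.Eventually.of_forall (fun ω => ?_)
    simp only [smul_eq_mul]
    rw [ENNReal.toReal_ofReal (hg0 ω)]
    exact hYg q ω
  -- parameters
  set ε : ℝ := (D - 1) / (D + 1) with hε
  have hD0 : 0 < D - 1 := by linarith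
  have hε0 : 0 < ε := div_pos hD0 (by linarith)
  have hε1 : ε < 1 := by rw [hε, div_lt_one (by linarith)]; linarith
  have hcardQ : (Fintype.card Q : ℝ) ≤ n ^ 2 := by
    have h1 : Fintype.card Q ≤ Fintype.card (Fin n × Fin n) :=
      Fintype.card_le_of_injective (fun q : Q => q.1) Subtype.val_injective
    rw [Fintype.card_prod, Fintype.card_fin] at h1
    have : (Fintype.card Q : ℝ) ≤ (n * n : ℕ) := by exact_mod_cast h1
    push_cast at this
    nlinarith
  have hNbig : 2 * (Fintype.card Q : ℝ) < exp (N * ε ^ 2 / (4 * S)) := by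
    have h1 : 4 * log n ≤ N * ε ^ 2 / (4 * S) := by
      rw [le_div_iff₀ (by positivity)]
      have hSn : S ≤ K ^ 2 * n := by
        rw [hS, pow_two, mul_assoc]
        exact mul_le_mul_of_nonneg_left hGcard hK0.le
      have h2 : 16 * K ^ 2 * n * log n ≤ N * ε ^ 2 := by
        have h3 : 16 * K ^ 2 * ((D + 1) / (D - 1)) ^ 2 * n * log n * ε ^ 2 ≤ N * ε ^ 2 :=
          mul_le_mul_of_nonneg_right hN (by positivity)
        have h4 : ((D + 1) / (D - 1)) ^ 2 * ε ^ 2 = 1 := by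
          rw [← mul_pow, hε]
          have : D + 1 ≠ 0 := by linarith
          have : D - 1 ≠ 0 := hD0.ne'
          field_simp
        calc 16 * K ^ 2 * n * log n = 16 * K ^ 2 * (((D + 1) / (D - 1)) ^ 2 * ε ^ 2) * n * log n := by
              rw [h4]; ring
          _ = 16 * K ^ 2 * ((D + 1) / (D - 1)) ^ 2 * n * log n * ε ^ 2 := by ring
          _ ≤ _ := h3
      nlinarith
    have h5 : exp (4 * log n) = (n : ℝ) ^ 4 := by
      rw [show (4 : ℝ) * log n = ((4 : ℕ) : ℝ) * log n by norm_num, exp_nat_mul, exp_log hn0]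
    calc 2 * (Fintype.card Q : ℝ) ≤ 2 * n ^ 2 := by linarith
      _ < (n : ℝ) ^ 4 := by
          have h6 : (4 : ℝ) ≤ (n : ℝ) ^ 2 := by nlinarith
          have h7 : (n : ℝ) ^ 4 = (n : ℝ) ^ 2 * (n : ℝ) ^ 2 := by ring
          rw [h7]; nlinarith
      _ = exp (4 * log n) := h5.symm
      _ ≤ _ := exp_le_exp.mpr h1
  obtain ⟨ω, hω⟩ := exists_good_sample (ν := ν) hS0 hε0 hε1.le hYm hY0 hYS hY1 N hNbig
  -- N is positive
  have hNpos : (0 : ℝ) < N := by
    have : 0 < 16 * K ^ 2 * ((D + 1) / (D - 1)) ^ 2 * n * log n := by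
      have : 0 < (D + 1) / (D - 1) := div_pos (by linarith) hD0
      positivity
    linarith
  -- the embedding
  set F : Fin n → PiLp p (fun _ : Fin N => ℝ) := fun i =>
    WithLp.toLp p (fun r => X i (ω r) / ((N : ℝ) * g (ω r)) ^ (1 / P)) with hF
  have hFnorm : ∀ q : Q, ‖F q.1.1 - F q.1.2‖ ^ P =
      ‖x q.1.1 - x q.1.2‖ ^ P * ((∑ r, Y q (ω r)) / N) := by
    intro q
    have h0 := hdist _ _ q.2
    rw [PiLp.norm_eq_sum hP0, ← Real.rpow_mul (Finset.sum_nonneg (fun r _ => by positivity)),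
      one_div, inv_mul_cancel₀ hP0.ne', Real.rpow_one, Finset.sum_div, Finset.mul_sum]
    apply Finset.sum_congr rfl
    intro r _
    have e1 : ((F q.1.1 - F q.1.2).ofLp r) =
        (X q.1.1 (ω r) - X q.1.2 (ω r)) / ((N : ℝ) * g (ω r)) ^ (1 / P) := by
      simp only [hF, PiLp.sub_apply]
      rw [sub_div]
    rw [e1, Real.norm_eq_abs, abs_div, abs_of_nonneg (Real.rpow_nonneg (mul_nonneg hNpos.le (hg0 _)) _),
      Real.div_rpow (abs_nonneg _) (Real.rpow_nonneg (mul_nonneg hNpos.le (hg0 _)) _),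
      ← Real.rpow_mul (mul_nonneg hNpos.le (hg0 _)), one_div, inv_mul_cancel₀ hP0.ne', Real.rpow_one]
    simp only [hY]
    rw [Real.div_rpow (abs_nonneg _) h0.le]
    have hpow : 0 < ‖x q.1.1 - x q.1.2‖ ^ P := Real.rpow_pos_of_pos h0 _
    rcases (hg0 (ω r)).eq_or_lt with h | h
    · rw [← h]; simp
    · field_simp
      rfl
  refine ⟨F, (1 - ε) ^ (1 / P), Real.rpow_pos_of_pos (by linarith) _, ?_⟩
  intro i j
  by_cases hij : i = j
  · subst hij; simp
  have h0 := hdist i j hij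
  have hq := hω ⟨(i, j), hij⟩
  have hFn := hFnorm ⟨(i, j), hij⟩
  simp only at hFn
  set T := (∑ r, Y ⟨(i, j), hij⟩ (ω r)) / N with hT
  have hT1 : 1 - ε < T := by rw [hT, lt_div_iff₀ hNpos]; exact hq.1
  have hT2 : T < 1 + ε := by rw [hT, div_lt_iff₀ hNpos]; exact hq.2
  have hT0 : 0 < T := by linarith
  have hFeq : ‖F i - F j‖ = ‖x i - x j‖ * T ^ (1 / P) := by
    have h1 : (‖F i - F j‖ ^ P) ^ (1 / P) = ‖F i - F j‖ := by
      rw [← Real.rpow_mul (norm_nonneg _), mul_one_div, div_self hP0.ne', Real.rpow_one]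
    rw [← h1, hFn, Real.mul_rpow (by positivity) hT0.le, ← Real.rpow_mul h0.le, mul_one_div,
      div_self hP0.ne', Real.rpow_one]
  have hinv : 0 < 1 / P := by positivity
  constructor
  · rw [hFeq, mul_comm]
    apply mul_le_mul_of_nonneg_left _ h0.le
    exact Real.rpow_le_rpow (by linarith) hT1.le hinv.le
  · rw [hFeq, mul_comm (D * (1 - ε) ^ (1 / P))]
    apply mul_le_mul_of_nonneg_left _ h0.le
    have hDε : 1 + ε = D * (1 - ε) := by
      rw [hε]
      have : D + 1 ≠ 0 := by linarith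
      field_simp
      ring
    calc T ^ (1 / P) ≤ (D * (1 - ε)) ^ (1 / P) := by
          apply Real.rpow_le_rpow hT0.le _ hinv.le
          rw [← hDε]; exact hT2.le
      _ = D ^ (1 / P) * (1 - ε) ^ (1 / P) := Real.mul_rpow (by linarith) (by linarith)
      _ ≤ D * (1 - ε) ^ (1 / P) := by
          apply mul_le_mul_of_nonneg_right _ (Real.rpow_nonneg (by linarith) _)
          calc D ^ (1 / P) ≤ D ^ (1 : ℝ) := by
                apply Real.rpow_le_rpow_of_exponent_le hD.le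
                rw [div_le_one hP0]; exact hP1
            _ = D := Real.rpow_one D

end Vale.Agent.P249h17
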