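import Vale.Agent.P249_h17.Comb

namespace Vale.Agent.P249h17

open Real Finset

variable {V ι : Type*} [DecidableEq ι]

/-- the greedy `p`-resistance spanner -/
lemma greedy {a b : ι → V} {ℓ : ι → ℝ} {p κ : ℝ} (hp : 0 < p) (hκ : 0 < κ) (hκ1 : κ ≤ 1)
    (S : Finset ι) (hℓ : ∀ e ∈ S, 0 < ℓ e) :
    ∃ G ⊆ S, Resistive a b G p κ ∧ ∀ e ∈ S, ∀ f : V → ℝ,
      (|f (a e) - f (b e)| / ℓ e) ^ p ≤ (1 / κ) * ∑ e' ∈ G, (|f (a e') - f (b e')| / ℓ e') ^ p := by
  classical
  revert hℓ
  refine Finset.induction_on_max_value ℓ S ?_ ?_
  · intro _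
    refine ⟨∅, Finset.Subset.refl _, ?_, ?_⟩
    · intro H hH hne
      rw [Finset.subset_empty] at hH
      exact absurd hne (by rw [hH]; simp)
    · intro e he; simp at he
  · intro e0 s he0 hmax ih hℓ
    obtain ⟨G, hGs, hres, hdom⟩ := ih (fun e he => hℓ e (Finset.mem_insert_of_mem he))
    have hℓ0 : 0 < ℓ e0 := hℓ e0 (Finset.mem_insert_self _ _)
    have hpos : ∀ e ∈ s, 0 < ℓ e := fun e he => hℓ e (Finset.mem_insert_of_mem he)
    by_cases hex : ∀ f : V → ℝ,
      (|f (a e0) - f (b e0)| / ℓ e0) ^ p ≤ (1 / κ) * ∑ e' ∈ G, (|f (a e') - f (b e')| / ℓ e') ^ p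
    · refine ⟨G, hGs.trans (Finset.subset_insert _ _), hres, ?_⟩
      intro e he f
      rcases Finset.mem_insert.mp he with h | h
      · rw [h]; exact hex f
      · exact hdom e h f
    · simp only [not_forall, not_le] at hex
      obtain ⟨f, hf⟩ := hex
      have he0G : e0 ∉ G := fun h => he0 (hGs h)
      refine ⟨insert e0 G, Finset.insert_subset_insert _ hGs, ?_, ?_⟩
      · intro H hH hne
        by_cases he0H : e0 ∈ H
        · refine ⟨e0, he0H, ?_⟩
          set D := f (a e0) - f (b e0) with hD
          have hsumnn : 0 ≤ ∑ e' ∈ G, (|f (a e') - f (b e')| / ℓ e') ^ p := by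
            apply Finset.sum_nonneg
            intro x hx
            exact Real.rpow_nonneg (div_nonneg (abs_nonneg _) (hpos x (hGs hx)).le) _
          have hDpos : 0 < |D| := by
            have h1 : 0 < (|D| / ℓ e0) ^ p := lt_of_le_of_lt (by positivity) hf
            have h2 : 0 < |D| / ℓ e0 := by
              by_contra hcon
              have h3 : |D| / ℓ e0 = 0 := le_antisymm (not_lt.mp hcon) (by positivity)
              rw [h3, Real.zero_rpow hp.ne'] at h1
              exact lt_irrefl _ h1
            by_contra hcon
            have h3 : |D| = 0 := le_antisymm (not_lt.mp hcon) (abs_nonneg _)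
            rw [h3, zero_div] at h2
            exact lt_irrefl _ h2
          have hD0 : D ≠ 0 := abs_pos.mp hDpos
          refine ⟨fun v => max 0 (min 1 ((f v - f (b e0)) / D)), ?_, ?_, ?_, ?_⟩
          · intro v
            exact ⟨le_max_left _ _, max_le zero_le_one (min_le_left _ _)⟩
          · simp only [← hD, div_self hD0]; simp
          · simp
          · have hclip : ∀ u v : V, |max 0 (min 1 ((f u - f (b e0)) / D)) -
                max 0 (min 1 ((f v - f (b e0)) / D))| ≤ |f u - f v| / |D| := by
              intro u v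
              calc |max 0 (min 1 ((f u - f (b e0)) / D)) - max 0 (min 1 ((f v - f (b e0)) / D))|
                  ≤ |min 1 ((f u - f (b e0)) / D) - min 1 ((f v - f (b e0)) / D)| := by
                    have := abs_max_sub_max_le_max 0 (min 1 ((f u - f (b e0)) / D)) 0
                      (min 1 ((f v - f (b e0)) / D))
                    simpa using this
                _ ≤ |(f u - f (b e0)) / D - (f v - f (b e0)) / D| := by
                    have := abs_min_sub_min_le_max 1 ((f u - f (b e0)) / D) 1
                      ((f v - f (b e0)) / D)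
                    simpa using this
                _ = |f u - f v| / |D| := by
                    rw [← sub_div, abs_div]; congr 2; ring
            have hstep : ∑ e' ∈ H.erase e0, |max 0 (min 1 ((f (a e') - f (b e0)) / D)) -
                max 0 (min 1 ((f (b e') - f (b e0)) / D))| ^ p ≤
                ∑ e' ∈ G, (ℓ e0 / |D|) ^ p * (|f (a e') - f (b e')| / ℓ e') ^ p := by
              calc _ ≤ ∑ e' ∈ H.erase e0, (ℓ e0 / |D|) ^ p * (|f (a e') - f (b e')| / ℓ e') ^ p := by
                    apply Finset.sum_le_sum
                    intro e' he'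
                    have he'G : e' ∈ G := by
                      have h1 := Finset.mem_of_mem_erase he'
                      have h2 := Finset.ne_of_mem_erase he'
                      exact (Finset.mem_insert.mp (hH h1)).resolve_left h2
                    have hℓ' : 0 < ℓ e' := hpos e' (hGs he'G)
                    have hle' : ℓ e' ≤ ℓ e0 := hmax e' (hGs he'G)
                    rw [← Real.mul_rpow (by positivity) (by positivity)]
                    apply Real.rpow_le_rpow (abs_nonneg _) _ hp.le
                    refine le_trans (hclip _ _) ?_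
                    rw [div_mul_div_comm, div_le_div_iff₀ hDpos (by positivity)]
                    have h5 : 0 ≤ |f (a e') - f (b e')| := abs_nonneg _
                    have h6 : |f (a e') - f (b e')| * ℓ e' ≤ |f (a e') - f (b e')| * ℓ e0 :=
                      mul_le_mul_of_nonneg_left hle' h5
                    nlinarith [abs_nonneg D]
                _ ≤ _ := by
                    apply Finset.sum_le_sum_of_subset_of_nonneg
                    · intro e' he'
                      have h1 := Finset.mem_of_mem_erase he'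
                      have h2 := Finset.ne_of_mem_erase he'
                      exact (Finset.mem_insert.mp (hH h1)).resolve_left h2
                    · intro e' he' _
                      have hℓ' : 0 < ℓ e' := hpos e' (hGs he')
                      positivity
            refine le_trans hstep ?_
            rw [← Finset.mul_sum]
            have h7 : (∑ e' ∈ G, (|f (a e') - f (b e')| / ℓ e') ^ p) ≤ κ * (|D| / ℓ e0) ^ p := by
              have h8 := hf.le
              rw [one_div, inv_mul_le_iff₀ hκ] at h8
              exact h8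
            calc (ℓ e0 / |D|) ^ p * ∑ e' ∈ G, (|f (a e') - f (b e')| / ℓ e') ^ p
                ≤ (ℓ e0 / |D|) ^ p * (κ * (|D| / ℓ e0) ^ p) :=
                  mul_le_mul_of_nonneg_left h7 (by positivity)
              _ = κ * ((ℓ e0 / |D|) * (|D| / ℓ e0)) ^ p := by
                  rw [Real.mul_rpow (by positivity) (by positivity)]; ring
              _ = κ := by
                  have : (ℓ e0 / |D|) * (|D| / ℓ e0) = 1 := by field_simp
                  rw [this, Real.one_rpow, mul_one]
        · refine hres H ?_ hne
          intro x hx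
          rcases Finset.mem_insert.mp (hH hx) with h | h
          · exact absurd (h ▸ hx) he0H
          · exact h
      · intro e he g
        rw [Finset.sum_insert he0G]
        have hsumnn : 0 ≤ ∑ e' ∈ G, (|g (a e') - g (b e')| / ℓ e') ^ p := by
          apply Finset.sum_nonneg
          intro x hx
          exact Real.rpow_nonneg (div_nonneg (abs_nonneg _) (hpos x (hGs hx)).le) _
        have h0 : 0 ≤ (|g (a e0) - g (b e0)| / ℓ e0) ^ p := by positivity
        have hK : 1 ≤ 1 / κ := by rw [le_div_iff₀ hκ]; linarith
        rcases Finset.mem_insert.mp he with h | h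
        · rw [h]
          nlinarith
        · refine le_trans (hdom e h g) ?_
          apply mul_le_mul_of_nonneg_left _ (by positivity)
          linarith

/-- a linear-size dominating set of pairs -/
theorem exists_spanner (p : ℝ) (hp : 1 ≤ p) : ∃ K : ℝ, 1 ≤ K ∧ ∀ (n : ℕ) (ℓ : Fin n × Fin n → ℝ),
    (∀ i j, i ≠ j → 0 < ℓ (i, j)) → ∃ G : Finset (Fin n × Fin n), (G.card : ℝ) ≤ K * n ∧
      (∀ e ∈ G, e.1 ≠ e.2) ∧
      ∀ i j, i ≠ j → ∀ f : Fin n → ℝ,
      (|f i - f j| / ℓ (i, j)) ^ p ≤ K * ∑ e ∈ G, (|f e.1 - f e.2| / ℓ e) ^ p := by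
  classical
  obtain ⟨α, β, C, κ, P, hκ1⟩ := exists_params p hp
  have hκ0 := P.hκ0
  have hC5 := P.C_ge
  have hK1 : 1 ≤ 1 / κ := by rw [le_div_iff₀ hκ0]; linarith
  refine ⟨max C (1 / κ), le_trans hK1 (le_max_right _ _), ?_⟩
  intro n ℓ hℓ
  obtain ⟨G, hGS, hres, hdom⟩ := greedy (a := Prod.fst) (b := Prod.snd) (ℓ := ℓ)
    (by linarith : 0 < p) hκ0 hκ1
    ((Finset.univ : Finset (Fin n × Fin n)).filter (fun e => e.1 ≠ e.2))
    (fun e he => hℓ e.1 e.2 (Finset.mem_filter.mp he).2)
  have hGne : ∀ e ∈ G, e.1 ≠ e.2 := fun e he => (Finset.mem_filter.mp (hGS he)).2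
  have hsumnn : ∀ f : Fin n → ℝ, 0 ≤ ∑ e ∈ G, (|f e.1 - f e.2| / ℓ e) ^ p := by
    intro f
    apply Finset.sum_nonneg
    intro x hx
    exact Real.rpow_nonneg (div_nonneg (abs_nonneg _) (hℓ x.1 x.2 (hGne x hx)).le) _
  refine ⟨G, ?_, hGne, ?_⟩
  · rcases Nat.eq_zero_or_pos n with hn | hn
    · subst hn
      have : G = ∅ := by
        rw [Finset.eq_empty_iff_forall_notMem]; intro e; exact Fin.elim0 e.1
      rw [this]; simp
    · have h := sparse P hres n (Finset.univ : Finset (Fin n)) (by simp)
        ⟨⟨0, hn⟩, Finset.mem_univ _⟩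
      have hin : inside Prod.fst Prod.snd G (Finset.univ : Finset (Fin n)) = G := by
        simp [inside]
      rw [hin] at h
      simp only [Finset.card_univ, Fintype.card_fin] at h
      have hα : 0 < 1 - α := by linarith [P.hα1]
      have hB : 0 ≤ 4 / (1 - α) * (n : ℝ) ^ α :=
        mul_nonneg (by positivity) (Real.rpow_nonneg (Nat.cast_nonneg _) _)
      calc (G.card : ℝ) ≤ C * n := by linarith
        _ ≤ max C (1 / κ) * n := by
          apply mul_le_mul_of_nonneg_right (le_max_left _ _) (Nat.cast_nonneg _)
  · intro i j hij f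
    have h := hdom (i, j) (by simp [hij]) f
    refine le_trans h ?_
    exact mul_le_mul_of_nonneg_right (le_max_right _ _) (hsumnn f)

end Vale.Agent.P249h17
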