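import Mathlib

namespace Vale.Agent.P249h17

open Real

/-- concavity: `x^α + y^α - (x+y)^α ≥ (1-α) x^α` for `0 < x ≤ y`. -/
lemma rpow_gain {α x y : ℝ} (hα0 : 0 ≤ α) (hα1 : α ≤ 1) (hx : 0 < x) (hxy : x ≤ y) :
    (x + y) ^ α + (1 - α) * x ^ α ≤ x ^ α + y ^ α := by
  have hy : 0 < y := lt_of_lt_of_le hx hxy
  have h1 : (x + y) = y * (1 + x / y) := by field_simp; ring
  have h2 : (1 + x / y) ^ α ≤ 1 + α * (x / y) :=
    rpow_one_add_le_one_add_mul_self (by have := div_pos hx hy; linarith) hα0 hα1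
  have h3 : (x + y) ^ α ≤ y ^ α * (1 + α * (x / y)) := by
    rw [h1, Real.mul_rpow hy.le (by have := div_pos hx hy; linarith)]
    exact mul_le_mul_of_nonneg_left h2 (Real.rpow_nonneg hy.le _)
  have h4 : y ^ α * (x / y) ≤ x ^ α := by
    have e1 : y ^ α * (x / y) = x * y ^ (α - 1) := by
      rw [Real.rpow_sub_one hy.ne']; ring
    have e2 : x ^ α = x * x ^ (α - 1) := by
      rw [Real.rpow_sub_one hx.ne']; field_simp
    rw [e1, e2]
    apply mul_le_mul_of_nonneg_left _ hx.le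
    exact Real.rpow_le_rpow_of_nonpos hx hxy (by linarith)
  have h5 : y ^ α * (1 + α * (x / y)) = y ^ α + α * (y ^ α * (x / y)) := by ring
  nlinarith [mul_le_mul_of_nonneg_left h4 hα0]

lemma rpow_gain' {α x y : ℝ} (hα0 : 0 ≤ α) (hα1 : α ≤ 1) (hx : 0 < x) (hy : 0 < y) :
    (x + y) ^ α + (1 - α) * (min x y) ^ α ≤ x ^ α + y ^ α := by
  rcases le_total x y with h | h
  · rw [min_eq_left h]; exact rpow_gain hα0 hα1 hx h
  · rw [min_eq_right h, add_comm x y, add_comm (x ^ α)]; exact rpow_gain hα0 hα1 hy h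

/-- potential decrease. -/
lemma potential_drop {α β c m m' : ℝ} (hα1 : α ≤ 1) (hβ0 : 0 < β) (hβ1 : β ≤ 1)
    (hc : 0 < c) (hm : 1 ≤ m) (hm' : m + c * m ^ α ≤ m') :
    (β * c / (1 + c)) * m ^ (α - 1 - β) ≤ m ^ (-β) - m' ^ (-β) := by
  have hm0 : 0 < m := by linarith
  have hpow : 0 < m ^ α := Real.rpow_pos_of_pos hm0 _
  set m2 := m + c * m ^ α with hm2
  have hm20 : 0 < m2 := by positivity
  have h1 : m' ^ (-β) ≤ m2 ^ (-β) := Real.rpow_le_rpow_of_nonpos hm20 hm' (by linarith)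
  set q := m / m2 with hq
  have hq0 : 0 < q := div_pos hm0 hm20
  have h2 : m2 ^ (-β) = m ^ (-β) * q ^ β := by
    rw [hq, Real.div_rpow hm0.le hm20.le, Real.rpow_neg hm0.le, Real.rpow_neg hm20.le]
    have := (Real.rpow_pos_of_pos hm0 β).ne'
    field_simp
  have h3 : q ^ β ≤ 1 + β * (q - 1) := by
    have := rpow_one_add_le_one_add_mul_self (s := q - 1) (by linarith) hβ0.le hβ1
    simpa using this
  have hle : m ^ α ≤ m := by
    calc m ^ α ≤ m ^ (1:ℝ) := Real.rpow_le_rpow_of_exponent_le hm hα1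
      _ = m := Real.rpow_one m
  have h4 : c * m ^ α / ((1 + c) * m) ≤ 1 - q := by
    have e : 1 - q = c * m ^ α / m2 := by
      rw [hq, eq_div_iff hm20.ne', sub_mul, div_mul_cancel₀ _ hm20.ne', hm2]; ring
    rw [e]
    apply div_le_div_of_nonneg_left (by positivity) hm20
    rw [hm2]; nlinarith
  have h5 : m ^ (α - 1 - β) = m ^ (-β) * (m ^ α / m) := by
    rw [show α - 1 - β = -β + (α - 1) by ring, Real.rpow_add hm0, Real.rpow_sub_one hm0.ne']
  have hmb : 0 < m ^ (-β) := Real.rpow_pos_of_pos hm0 _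
  have h6 : (β * c / (1 + c)) * m ^ (α - 1 - β) = m ^ (-β) * (β * (c * m ^ α / ((1 + c) * m))) := by
    rw [h5]; field_simp
  have h7 : m ^ (-β) * (β * (c * m ^ α / ((1 + c) * m))) ≤ m ^ (-β) * (β * (1 - q)) := by
    apply mul_le_mul_of_nonneg_left _ hmb.le
    exact mul_le_mul_of_nonneg_left h4 hβ0.le
  have h8 : m ^ (-β) * q ^ β ≤ m ^ (-β) * (1 + β * (q - 1)) :=
    mul_le_mul_of_nonneg_left h3 hmb.le
  rw [h6]
  calc m ^ (-β) * (β * (c * m ^ α / ((1 + c) * m))) ≤ m ^ (-β) * (β * (1 - q)) := h7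
    _ = m ^ (-β) - m ^ (-β) * (1 + β * (q - 1)) := by ring
    _ ≤ m ^ (-β) - m2 ^ (-β) := by rw [h2]; linarith
    _ ≤ m ^ (-β) - m' ^ (-β) := by linarith

end Vale.Agent.P249h17
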